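import Vale.Agent.P040.H242.OInst
import Vale.Agent.P040.H242.OBnd
import Vale.Agent.P040.H522.ORows

/-!
# P040, both parts odd: `OddMachine` from the hexagon rule alone
-/

set_option autoImplicit false

namespace Vale.Agent.P040.H40

open Pst P040H251 Vale.Agent.P040.H242O H682

/-- Everything except the hexagon rule is proved. -/
theorem oddMachine_of_hex
    (H : ∀ (h : ℕ) (P : OData h), OTri.HexGeom P vminus) : Odd.OddMachine :=
  oddMachine_of_rows (σ := -1) (Or.inr rfl) fun h P =>
    ⟨H522.oTwist P vminus, H522.oStep P vminus,
      oBound P vminus (fun P' => H522.oTwist P' vminus) (Or.inr rfl), H h P⟩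

end Vale.Agent.P040.H40
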